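import Vale.Agent.P097D.Inj
import Vale.Agent.P097D.Val
import Vale.Agent.P097D.Mul

/-!
# P097D.L: injectivity and energy without a global bound for the depth
-/

set_option linter.all false

noncomputable section

namespace Vale.Agent.P097D.L

open Set Metric Filter Topology MeasureTheory

/-- the limit leaf with step `W` and top `T` -/
structure ML (g : ℂ → ℂ) (W T : ℝ) (Y δ : ℂ → ℂ) : Prop where
  W0 : 0 < W
  ang : DifferentiableOn ℂ g (Lo 0)
  anY : DifferentiableOn ℂ Y (Lo T)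
  anδ : DifferentiableOn ℂ δ (Lo T)
  lo : ∀ x ∈ Lo T, (Y x).im < 0
  inv : ∀ x ∈ Lo T, (W * g (Y x)) ^ 3 = 24 * SS (δ x)
  ode : ∀ x ∈ Lo T, W * g (Y x) * deriv Y x = 2 * δ x
  np : ∀ b : ℂ, (∀ x ∈ Lo T, x + b ∈ Lo T → Y (x + b) = Y x) → b = 0
  ne : ∃ x ∈ Lo T, δ x * Complex.sin (δ x) ≠ 0

namespace ML

variable {g Y δ : ℂ → ℂ} {W T : ℝ}

theorem aY (M : ML g W T Y δ) {x : ℂ} (hx : x ∈ Lo T) : AnalyticAt ℂ Y x :=
  M.anY.analyticAt ((Lo_open T).mem_nhds hx)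

theorem aδ (M : ML g W T Y δ) {x : ℂ} (hx : x ∈ Lo T) : AnalyticAt ℂ δ x :=
  M.anδ.analyticAt ((Lo_open T).mem_nhds hx)

theorem mem (M : ML g W T Y δ) {x : ℂ} (hx : x ∈ Lo T) : Y x ∈ Lo 0 :=
  M.lo x hx

theorem ag (M : ML g W T Y δ) {y : ℂ} (hy : y ∈ Lo 0) : AnalyticAt ℂ g y :=
  M.ang.analyticAt ((Lo_open 0).mem_nhds hy)

theorem dY_ne (M : ML g W T Y δ) {x : ℂ} (hx : x ∈ Lo T) (h : δ x ≠ 0) : deriv Y x ≠ 0 :=
  fun e => h (by have := M.ode x hx; rw [e, mul_zero] at this; simpa using this.symm)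

theorem s_ne (M : ML g W T Y δ) {x : ℂ} (hx : x ∈ Lo T) (h : δ x ≠ 0) : W * g (Y x) ≠ 0 :=
  fun e => h (by have := M.ode x hx; rw [e, zero_mul] at this; simpa using this.symm)

end ML

theorem inj (g Y δ : ℂ → ℂ) (W T : ℝ) (M : ML g W T Y δ) (x : ℂ) (hx : x ∈ Lo T) (x' : ℂ)
    (hx' : x' ∈ Lo T) (hr : δ x * Complex.sin (δ x) ≠ 0) (eY : Y x = Y x') (eδ : δ x = δ x') :
    x = x' := by
  have h0 : δ x ≠ 0 := left_ne_zero_of_mul hr
  have h0' : δ x' ≠ 0 := eδ ▸ h0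
  have aY := M.aY hx
  have aY' := M.aY hx'
  have d' := M.dY_ne hx' h0'
  -- `φ` near `x` with `Y (φ z) = Y z`
  have hs := aY'.hasStrictDerivAt
  set ι := hs.localInverse Y _ x' d' with hι
  have ιs : HasStrictDerivAt ι (deriv Y x')⁻¹ (Y x') := hs.to_localInverse d'
  have ιa : AnalyticAt ℂ ι (Y x') := by
    have := aY'.contDiffAt (n := ⊤)
    exact (this.to_localInverse (hs.hasStrictFDerivAt_equiv d').hasFDerivAt (by simp)).analyticAt
  have ι0 : ι (Y x') = x' := (hs.hasStrictFDerivAt_equiv d').localInverse_apply_image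
  have ιr : ∀ᶠ y in 𝓝 (Y x'), Y (ι y) = y := (hs.hasStrictFDerivAt_equiv d').eventually_right_inverse
  set φ : ℂ → ℂ := fun z => ι (Y z) with hφ
  have φa : AnalyticAt ℂ φ x := AnalyticAt.comp (eY ▸ ιa) aY
  have φ0 : φ x = x' := by simp only [hφ, eY, ι0]
  have tY : Tendsto Y (𝓝 x) (𝓝 (Y x')) := eY ▸ aY.continuousAt
  have tφ : Tendsto φ (𝓝 x) (𝓝 x') := φ0 ▸ φa.continuousAt
  have e1 : ∀ᶠ z in 𝓝 x, Y (φ z) = Y z := tY.eventually ιr
  obtain ⟨U, hU, iU⟩ := loc_inj (SS_an (δ x)) (by rw [(SS_deriv _).deriv]; exact hr)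
  have m1 : ∀ᶠ z in 𝓝 x, z ∈ Lo T := (Lo_open T).mem_nhds hx
  have m2 : ∀ᶠ z in 𝓝 x, φ z ∈ Lo T := tφ.eventually ((Lo_open T).mem_nhds hx')
  have u1 : ∀ᶠ z in 𝓝 x, δ z ∈ U := (M.aδ hx).continuousAt.eventually hU
  have u2 : ∀ᶠ z in 𝓝 x, δ (φ z) ∈ U :=
    (((M.aδ hx').continuousAt.tendsto.comp tφ)).eventually (eδ ▸ hU)
  have n1 : ∀ᶠ z in 𝓝 x, δ z ≠ 0 := (M.aδ hx).continuousAt.eventually_ne h0
  have e2 : ∀ᶠ z in 𝓝 x, deriv φ z = 1 := by
    filter_upwards [e1, e1.eventually_nhds, m1, m2, u1, u2, n1, φa.eventually_analyticAt]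
      with z e1 e1' m1 m2 u1 u2 n1 a
    have e3 : δ (φ z) = δ z := iU u2 u1 (by
      have h1 := M.inv _ m1
      have h2 := M.inv _ m2
      rw [e1, h1] at h2
      exact (mul_left_cancel₀ (by norm_num) h2).symm)
    have e4 : deriv Y (φ z) = deriv Y z := by
      have h1 := M.ode _ m1
      have h2 := M.ode _ m2
      rw [e1, e3, ← h1] at h2
      exact mul_left_cancel₀ (M.s_ne m1 n1) h2
    have e5 : deriv Y (φ z) * deriv φ z = deriv Y z :=
      (((M.aY m2).differentiableAt.hasDerivAt.comp z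
        a.differentiableAt.hasDerivAt).congr_of_eventuallyEq (EventuallyEq.symm e1')).deriv.symm
    rw [e4] at e5
    exact mul_left_cancel₀ (M.dY_ne m1 n1) (e5.trans (mul_one _).symm)
  have e3 : ∀ᶠ z in 𝓝 x, φ z = z + (x' - x) := by
    obtain ⟨ε, hε, hb⟩ := Metric.eventually_nhds_iff_ball.1 (e2.and φa.eventually_analyticAt)
    filter_upwards [ball_mem_nhds x hε] with z hz
    have := (convex_ball x ε).is_const_of_fderivWithin_eq_zero (𝕜 := ℂ) (f := fun z => φ z - z)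
      (fun w hw => ((hb w hw).2.differentiableAt.sub differentiableAt_id).differentiableWithinAt)
      (fun w hw => by
        rw [fderivWithin_of_isOpen isOpen_ball hw]
        have h1 : HasDerivAt (fun z => φ z - z) (deriv φ w - 1) w :=
          (hb w hw).2.differentiableAt.hasDerivAt.sub (hasDerivAt_id w)
        rw [(hb w hw).1, sub_self] at h1
        rw [h1.hasFDerivAt.fderiv]
        simp) hz (mem_ball_self hε)
    simp only [φ0] at this
    linear_combination this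
  set b := x' - x with hb
  have key : b = 0 := by
    refine M.np b ?_
    set V : Set ℂ := Lo T ∩ Lo (T - b.im) with hV
    have mV : ∀ z, z ∈ V ↔ z ∈ Lo T ∧ z + b ∈ Lo T := fun z => by
      simp only [hV, Lo, mem_inter_iff, mem_setOf_eq, Complex.add_im, lt_sub_iff_add_lt]
    have hE : EqOn (fun z => Y (z + b)) Y V :=
      AnalyticOnNhd.eqOn_of_preconnected_of_eventuallyEq (𝕜 := ℂ)
        (fun z hz => AnalyticAt.comp (g := Y) (f := fun z => z + b) (M.aY ((mV z).1 hz).2)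
          (by fun_prop))
        (fun z hz => M.aY ((mV z).1 hz).1) ((Lo_convex _).inter (Lo_convex _)).isPreconnected
        ((mV x).2 ⟨hx, by simpa [hb] using hx'⟩) (by
          filter_upwards [e1, e3] with z e1 e3
          rw [← e3, e1])
    exact fun z h1 h2 => hE ((mV z).2 ⟨h1, h2⟩)
  exact (sub_eq_zero.1 key).symm

theorem en (k : ℝ) : ∃ N : ℕ, ∀ (g Y δ : ℂ → ℂ) (W T R : ℝ), ML g W T Y δ →
    ∫⁻ x in {x | x ∈ Lo T ∧ ‖δ x‖ ≤ k ∧ ‖Y x‖ ≤ R}, ‖deriv Y x‖ₑ ^ 2 ≤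
      N * volume (closedBall (0 : ℂ) R) := by
  obtain ⟨N, hN⟩ := val k
  refine ⟨N, fun g Y δ W T R h => ?_⟩
  classical
  have hU : IsOpen (Lo T) := isOpen_lt Complex.continuous_im continuous_const
  have hc : IsPreconnected (Lo T) := (convex_halfSpace_im_lt T).isPreconnected
  have an : AnalyticOnNhd ℂ (fun x => δ x * Complex.sin (δ x)) (Lo T) :=
    (h.anδ.mul h.anδ.csin).analyticOnNhd hU
  have ae0 : ∀ᵐ x, x ∈ Lo T → δ x * Complex.sin (δ x) ≠ 0 := by
    rcases an.eqOn_zero_or_eventually_ne_zero_of_preconnected hc with h0 | h0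
    · obtain ⟨x, hx, hx'⟩ := h.ne
      exact absurd (h0 hx) hx'
    · exact (ae_restrict_iff' hU.measurableSet).1
        (ae_restrict_le_codiscreteWithin (μ := volume) hU.measurableSet h0)
  let E : Set ℂ := {x | x ∈ Lo T ∧ ‖δ x‖ ≤ k ∧ ‖Y x‖ ≤ R ∧ δ x * Complex.sin (δ x) ≠ 0}
  have hE : MeasurableSet E := by
    have c1 := continuousOn_iff_continuous_restrict.1 h.anδ.continuousOn
    have c2 := continuousOn_iff_continuous_restrict.1 h.anY.continuousOn
    have c3 := continuousOn_iff_continuous_restrict.1 an.continuousOn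
    have := hU.measurableSet.subtype_image
      (((isClosed_le c1.norm (continuous_const (y := k))).measurableSet.inter
        (isClosed_le c2.norm (continuous_const (y := R))).measurableSet).inter
        (isOpen_ne_fun c3 (continuous_const (y := 0))).measurableSet)
    refine (congrArg MeasurableSet (Set.ext fun x => ⟨?_, ?_⟩)).mp this
    · rintro ⟨y, ⟨⟨h1, h2⟩, h3⟩, rfl⟩
      exact ⟨y.2, h1, h2, h3⟩
    · rintro ⟨h0, h1, h2, h3⟩
      exact ⟨⟨x, h0⟩, ⟨⟨h1, h2⟩, h3⟩, rfl⟩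
  have e : {x | x ∈ Lo T ∧ ‖δ x‖ ≤ k ∧ ‖Y x‖ ≤ R} =ᵐ[volume] E := by
    filter_upwards [ae0] with x hx
    exact propext ⟨fun h => ⟨h.1, h.2.1, h.2.2, hx h.1⟩, fun h => ⟨h.1, h.2.1, h.2.2.1⟩⟩
  rw [Measure.restrict_congr_set e]
  refine mul (Lo T) E _ Y N hU h.anY hE (fun x hx => hx.1)
    (fun x hx => mem_closedBall_zero_iff.2 hx.2.2.1) (fun x hx h0 => ?_) fun y F hF => ?_
  · have := h.ode x hx.1
    rw [h0, mul_zero] at this
    exact hx.2.2.2 (by rw [(mul_eq_zero.1 this.symm).resolve_left two_ne_zero, zero_mul])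
  · rw [← Finset.card_image_of_injOn (f := δ) fun x hx x' hx' e =>
      inj g Y δ W T h x (hF x hx).1.1 x' (hF x' hx').1.1 (hF x hx).1.2.2.2
        ((hF x hx).2.trans (hF x' hx').2.symm) e]
    refine hN ((W * g y) ^ 3 / 24) _ fun z hz => ?_
    obtain ⟨x, hx, rfl⟩ := Finset.mem_image.1 hz
    refine ⟨(hF x hx).1.2.1, ?_⟩
    rw [← (hF x hx).2, h.inv x (hF x hx).1.1]
    ring

end Vale.Agent.P097D.L
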