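import Vale.Agent.P097D.L.A
import Vale.Agent.P097D.Ray
import Vale.Agent.P097D.Exc
import Vale.Agent.P097D.Dec

/-!
# P097D.L: sheets, rays and excursions with a local bound for the depth
-/

set_option linter.all false

noncomputable section

namespace Vale.Agent.P097D.L

open Set Metric Complex Filter Topology MeasureTheory
open scoped ENNReal

/-- the state is bounded at the bottom of the column of half width `w` at the place `a` -/
def Bot (Y δ : ℂ → ℂ) (D₁ L w a : ℝ) : Prop := ∀ x : ℂ, |x.re - a| ≤ w → -3 * D₁ ≤ x.im →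
  x.im ≤ -D₁ → ‖Y x - a‖ ≤ L ∧ ‖δ x‖ ≤ L

/-- no contact in the column -/
def Dep (Y : ℂ → ℂ) (T τ w a : ℝ) : Prop := ∀ x ∈ Lo T, |x.re - a| ≤ w → (Y x).im ≤ -τ

/-- the derivative of `cos δ` -/
theorem sh_id {g Y δ : ℂ → ℂ} {W T : ℝ} (m : ML g W T Y δ) {x : ℂ} (hx : x ∈ Lo T) :
    sin (δ x) * deriv δ x = (W : ℂ) ^ 2 * (g (Y x) * deriv g (Y x)) / 4 := by
  have nb := (sh_open T).mem_nhds hx
  have hY := (m.anY.differentiableAt nb).hasDerivAt
  have hd := (m.anδ.differentiableAt nb).hasDerivAt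
  have yl : Y x ∈ Lo 0 := m.lo x hx
  have hg := (m.ang.differentiableAt ((sh_open 0).mem_nhds yl)).hasDerivAt
  have h1 := ((hg.comp x hY).const_mul (W : ℂ)).fun_pow 3
  have h2 := ((hd.csin.sub (hd.mul hd.ccos)).const_mul (24 : ℂ))
  have e : (fun z => ((W : ℂ) * (g ∘ Y) z) ^ 3) =ᶠ[𝓝 x]
      fun z => 24 * ((fun z => sin (δ z)) - δ * fun z => cos (δ z)) z := by
    filter_upwards [nb] with z hz
    simpa [SS] using m.inv z hz
  have h3 := h1.unique (h2.congr_of_eventuallyEq e)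
  have o := m.ode x hx
  by_cases h : δ x = 0
  · have i := m.inv x hx
    have W0 : (W : ℂ) ≠ 0 := by exact_mod_cast m.W0.ne'
    simp [h, SS, W0] at i
    simp [h, i]
  · simp only [Function.comp] at h3
    apply mul_left_cancel₀ h
    push_cast at h3
    linear_combination (-1 / 24 : ℂ) * h3 + (W : ℂ) ^ 2 * g (Y x) * deriv g (Y x) / 8 * o

/-- the bound for the derivative of `cos δ` on a vertical -/
theorem sh_bd {g Y δ : ℂ → ℂ} {W T τ C W₁ D₁ L a ξ s : ℝ} (m : ML g W T Y δ) (hW : W ≤ W₁)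
    (τ0 : 0 < τ) (dp : (Y (ξ + s * I)).im ≤ -τ)
    (hT : T ≤ 0) (G : GP g τ C a) (hL : ‖Y (ξ + (-D₁ : ℝ) * I) - a‖ ≤ L) (h1 : -D₁ ≤ s)
    (h2 : s < T) : ‖sin (δ (ξ + s * I))‖ * ‖deriv δ (ξ + s * I)‖ ≤
      W₁ ^ 2 * (Real.sqrt D₁ + Real.sqrt (C * (D₁ * (1 + τ / 2 + 3 * L)))) / (2 * τ) /
        Real.sqrt (T - s) := by
  have W0 := m.W0
  set x : ℂ := ξ + s * I with hx
  set x₀ : ℂ := ξ + (-D₁ : ℝ) * I with hx₀
  set h := T - s with hh
  have h0 : 0 < h := by linarith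
  have hD : h ≤ D₁ := by linarith
  have L0 : 0 ≤ L := (norm_nonneg _).trans hL
  have C0 : 0 ≤ C := by
    have := G (((-τ / 2 : ℝ) : ℂ) * I) (by simp)
    exact nonneg_of_mul_nonneg_left ((by positivity : (0 : ℝ) ≤ _).trans this) (by positivity)
  have xl : x ∈ Lo T := by
    show x.im < T
    simpa [hx] using h2
  have n : ‖x - x₀‖ = s + D₁ := by
    have : x - x₀ = ((s + D₁ : ℝ) : ℂ) * I := by rw [hx, hx₀]; push_cast; ring
    rw [this, norm_mul, norm_I, mul_one, norm_real, Real.norm_of_nonneg (by linarith)]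
  have S := sh_schw (R := T + D₁) m.anY m.lo
    (x₀ := x₀) (x := x) (by simp [hx₀]) (by rw [n]; linarith)
  rw [n, show T + D₁ - (s + D₁) = h by rw [hh]; ring] at S
  have i0 : |(Y x₀).im| ≤ L := by
    have := abs_im_le_norm (Y x₀ - a)
    simp only [sub_im, ofReal_im, sub_zero] at this
    linarith
  have b1 : ‖Y x - a‖ * h ≤ 3 * (D₁ * L) := by
    have t : ‖Y x - a‖ ≤ ‖Y x - Y x₀‖ + ‖Y x₀ - a‖ := norm_sub_le_norm_sub_add_norm_sub _ _ _
    have u : 2 * (T + D₁) * |(Y x₀).im| ≤ 2 * D₁ * L := by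
      gcongr
      · linarith
      · linarith
    nlinarith [mul_le_mul_of_nonneg_left hD L0, mul_le_mul_of_nonneg_right (t.trans
      (add_le_add le_rfl hL)) h0.le]
  set C₂ := C * (D₁ * (1 + τ / 2 + 3 * L)) with hC₂
  have D0 : 0 ≤ D₁ := by linarith
  have C20 : 0 ≤ C₂ := by positivity
  set q := Real.sqrt C₂ / Real.sqrt h with hq
  have q0 : 0 ≤ q := by positivity
  have sh0 : 0 < Real.sqrt h := Real.sqrt_pos.2 h0
  have q2 : q ^ 2 * h = C₂ := by
    rw [hq, div_pow, Real.sq_sqrt C20, Real.sq_sqrt h0.le]; field_simp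
  set M := Real.sqrt (1 + q) with hM
  have M2 : M ^ 2 = 1 + q := Real.sq_sqrt (by linarith)
  have cb : ∀ y ∈ closedBall (Y x) (τ / 2), y.im ≤ -τ / 2 := fun y hy => by
    rw [mem_closedBall, dist_eq_norm] at hy
    have := (le_abs_self _).trans (abs_im_le_norm (y - Y x))
    simp only [sub_im] at this
    linarith
  have gb : ∀ y ∈ closedBall (Y x) (τ / 2), ‖g y‖ ≤ M := fun y hy => by
    have e1 := G y (cb y hy)
    rw [mem_closedBall, dist_eq_norm] at hy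
    have t : ‖y - a‖ ≤ ‖y - Y x‖ + ‖Y x - a‖ := norm_sub_le_norm_sub_add_norm_sub _ _ _
    have e2 : (1 + ‖y - a‖) * h ≤ D₁ * (1 + τ / 2 + 3 * L) := by
      nlinarith [mul_le_mul_of_nonneg_right (t.trans (add_le_add hy le_rfl)) h0.le,
        mul_le_mul_of_nonneg_left hD τ0.le]
    have e3 : ‖g y‖ ^ 8 * h ≤ q ^ 2 * h := by
      rw [q2]
      calc _ ≤ C * (1 + ‖y - a‖) * h := by gcongr
        _ = C * ((1 + ‖y - a‖) * h) := by ring
        _ ≤ _ := by rw [hC₂]; gcongr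
    have e4 : ‖g y‖ ^ 8 ≤ M ^ 8 := by
      refine (le_of_mul_le_mul_right e3 h0).trans ?_
      rw [show M ^ 8 = (M ^ 2) ^ 4 by ring, M2]
      calc q ^ 2 ≤ (1 + q) ^ 2 := by gcongr; linarith
        _ ≤ (1 + q) ^ 4 := pow_le_pow_right₀ (by linarith) (by norm_num)
    exact le_of_pow_le_pow_left₀ (by norm_num) (Real.sqrt_nonneg _) e4
  have gd : ‖deriv g (Y x)‖ ≤ M / (τ / 2) := by
    refine Complex.norm_deriv_le_of_forall_mem_sphere_norm_le (by linarith) ?_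
      fun y hy => gb y (sphere_subset_closedBall hy)
    refine DifferentiableOn.diffContOnCl (m.ang.mono ?_)
    rw [closure_ball _ (by linarith)]
    intro y hy
    have := cb y hy
    show y.im < 0
    linarith
  have g0 := gb (Y x) (mem_closedBall_self (by linarith))
  have M0 : 0 ≤ M := Real.sqrt_nonneg _
  have one : 1 + q ≤ (Real.sqrt D₁ + Real.sqrt C₂) / Real.sqrt h := by
    rw [add_div, hq]
    gcongr
    exact (one_le_div sh0).2 (Real.sqrt_le_sqrt hD)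
  rw [← norm_mul, sh_id m xl, norm_div, norm_mul, norm_mul, norm_pow, norm_real,
    Real.norm_of_nonneg W0.le]
  calc W ^ 2 * (‖g (Y x)‖ * ‖deriv g (Y x)‖) / ‖(4 : ℂ)‖
      ≤ W₁ ^ 2 * (M * (M / (τ / 2))) / ‖(4 : ℂ)‖ := by gcongr
    _ = W₁ ^ 2 * M ^ 2 / (2 * τ) := by
      rw [show ‖(4 : ℂ)‖ = 4 by simp]; field_simp; ring
    _ ≤ W₁ ^ 2 * ((Real.sqrt D₁ + Real.sqrt C₂) / Real.sqrt h) / (2 * τ) := by
      rw [M2]; gcongr
    _ = _ := by ring

theorem sh (τ C W₁ D₁ L : ℝ) (τ0 : 0 < τ) : ∃ k : ℝ, 1 ≤ k ∧ ∀ (g Y δ : ℂ → ℂ) (W T w a : ℝ),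
    ML g W T Y δ → W ≤ W₁ → T ≤ 0 → -D₁ < T → GP g τ C a → Bot Y δ D₁ L w a → Dep Y T τ w a →
    Sheet δ T D₁ k w a := by
  set A := W₁ ^ 2 * (Real.sqrt D₁ + Real.sqrt (C * (D₁ * (1 + τ / 2 + 3 * L)))) / (2 * τ) with hA
  refine ⟨max (max 1 L) (3 * (2 * A * Real.sqrt D₁) + 1 + L + Real.cosh L),
    (le_max_left _ _).trans (le_max_left _ _), ?_⟩
  intro g Y δ W T w a m hW hT hD G B dp x hx h1 h2
  rcases le_or_gt x.im (-D₁) with h3 | h3
  · exact (B x h1 h2 h3).2.trans ((le_max_right _ _).trans (le_max_left _ _))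
  refine le_trans ?_ (le_max_right _ _)
  have xT : x.im < T := hx
  have D0 : 0 < D₁ := by linarith
  have A0 : 0 ≤ A := by positivity
  obtain ⟨b1, b2⟩ := B (x.re + (-D₁ : ℝ) * I) (by simpa using h1) (by simp; linarith) (by simp)
  have dd : ∀ s ∈ Icc (-D₁) x.im, HasDerivAt (fun s : ℝ => δ (x.re + s * I))
      (deriv δ (x.re + s * I) * I) s := fun s hs => by
    have xl : (x.re + s * I : ℂ) ∈ Lo T := by
      show (x.re + s * I : ℂ).im < T
      simpa using hs.2.trans_lt xT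
    have d1 := (m.anδ.differentiableAt ((sh_open T).mem_nhds xl)).hasDerivAt
    have d2 : HasDerivAt (fun z : ℂ => (x.re : ℂ) + z * I) I (s : ℂ) := by
      simpa using ((hasDerivAt_id (s : ℂ)).mul_const I).const_add (x.re : ℂ)
    exact (d1.comp (s : ℂ) d2).comp_ofReal
  have bd : ∀ s ∈ Icc (-D₁) x.im, ‖sin (δ (x.re + s * I))‖ * ‖deriv δ (x.re + s * I)‖ ≤
      A / Real.sqrt (T - s) := fun s hs => sh_bd m hW τ0 (dp _ (by
        show (x.re + s * I : ℂ).im < T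
        simpa using hs.2.trans_lt xT) (by simpa using h1)) hT G b1 hs.1 (hs.2.trans_lt xT)
  have V : 2 * A * Real.sqrt (T - -D₁) ≤ 2 * A * Real.sqrt D₁ := by
    gcongr; linarith
  have r := sh_var (u := fun s : ℝ => (δ (x.re + s * I)).re / 2 -
      Real.sin (2 * (δ (x.re + s * I)).re) / 4)
    (u' := fun s => Real.sin (δ (x.re + s * I)).re ^ 2 * (deriv δ (x.re + s * I) * I).re)
    h3.le xT A0
    (fun s hs => by
      have d := reCLM.hasFDerivAt.comp_hasDerivAt s (dd s hs)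
      refine ((d.div_const 2).fun_sub ((d.const_mul 2).sin.div_const 4)).congr_deriv ?_
      simp only [Function.comp, reCLM_apply]
      rw [Real.cos_two_mul, Real.cos_sq']
      ring)
    (fun s hs => by
      refine le_trans ?_ (bd s hs)
      rw [abs_mul, abs_of_nonneg (sq_nonneg _)]
      exact mul_le_mul (sh_sin _).1 ((abs_re_le_norm _).trans (by simp)) (abs_nonneg _)
        (norm_nonneg _))
  have i := sh_var (u := fun s : ℝ => Real.cosh (δ (x.re + s * I)).im)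
    (u' := fun s => Real.sinh (δ (x.re + s * I)).im * (deriv δ (x.re + s * I) * I).im)
    h3.le xT A0
    (fun s hs => (imCLM.hasFDerivAt.comp_hasDerivAt s (dd s hs)).cosh)
    (fun s hs => by
      refine le_trans ?_ (bd s hs)
      rw [abs_mul]
      exact mul_le_mul (sh_sin _).2 ((abs_im_le_norm _).trans (by simp)) (abs_nonneg _)
        (norm_nonneg _))
  simp only [re_add_im] at r i
  set d₀ := δ (x.re + (-D₁ : ℝ) * I)
  have r0 := abs_le.1 ((abs_re_le_norm d₀).trans b2)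
  have i0 : Real.cosh d₀.im ≤ Real.cosh L :=
    Real.cosh_le_cosh.2 (((abs_im_le_norm d₀).trans b2).trans (le_abs_self _))
  have i1 : |(δ x).im| ≤ Real.cosh (δ x).im := by
    rw [← Real.cosh_abs]
    exact (Real.self_le_sinh_iff.2 (abs_nonneg _)).trans (Real.sinh_lt_cosh _).le
  have s1 := abs_le.1 (Real.abs_sin_le_one (2 * (δ x).re))
  have s2 := abs_le.1 (Real.abs_sin_le_one (2 * d₀.re))
  have r1 : |(δ x).re| ≤ 2 * (2 * A * Real.sqrt D₁) + 1 + L := by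
    have := abs_le.1 (r.trans V)
    rw [abs_le]
    constructor <;> linarith [this.1, this.2, r0.1, r0.2, s1.1, s1.2, s2.1, s2.2]
  have := abs_le.1 (i.trans V)
  linarith [norm_le_abs_re_add_abs_im (δ x), this.2]

theorem ray (g Y δ : ℂ → ℂ) (W T τ D₁ k t E r : ℝ) (x : ℂ) (m : ML g W T Y δ)
    (t0 : 0 < t) (k0 : 0 < k) (r0 : 0 < r) (rD : r ≤ 2 * D₁) (E0 : 0 ≤ E) (hx : x ∈ Lo T)
    (h3 : 3 * t ≤ ‖Y x‖)
    (hδ : ∀ z ∈ Lo T, ‖z - x‖ ≤ 2 * D₁ → z.im ≤ x.im → ‖δ z‖ ≤ k)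
    (hτ : ∀ z ∈ Lo T, ‖z - x‖ ≤ 2 * D₁ → (Y z).im ≤ -τ)
    (h2 : ∀ z : ℂ, ‖z - x‖ = 2 * D₁ → z.im ≤ x.im - D₁ → ‖Y z‖ ≤ 2 * t)
    (hE : ∫⁻ z in {z | z ∈ Lo T ∧ ‖z - x‖ ≤ 2 * D₁ ∧ z.im ≤ x.im ∧ ‖Y z‖ ≤ 3 * t},
      ‖deriv Y z‖ₑ ^ 2 ≤ ENNReal.ofReal E)
    (hl : 4 * E * Real.log (2 * D₁ / r) ≤ t ^ 2) :
    ∃ A : Set ℂ, (∀ y ∈ A, y.im ≤ -τ ∧ ‖y‖ ≤ 3 * t ∧ ‖g y‖ ≤ 8 * k * r / (W * t)) ∧
      ENNReal.ofReal (t / 4) ≤ volume ((fun y : ℂ => ‖y‖) '' A) := by
  have W0 := m.W0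
  set S := {z | z ∈ Lo T ∧ ‖z - x‖ ≤ 2 * D₁ ∧ z.im ≤ x.im ∧ ‖Y z‖ ≤ 3 * t} with hS
  have mS : MeasurableSet S := by
    have o := (m.anY.continuousOn.norm).isOpen_inter_preimage (sh_open T) (isOpen_Ioi (a := 3 * t))
    have e : S = (Lo T \ (Lo T ∩ (fun z => ‖Y z‖) ⁻¹' Ioi (3 * t))) ∩
        ({z | ‖z - x‖ ≤ 2 * D₁} ∩ {z | z.im ≤ x.im}) := by
      ext z
      simp only [hS, mem_setOf_eq, mem_inter_iff, mem_diff, mem_preimage, mem_Ioi, not_and, not_lt]
      tauto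
    rw [e]
    exact ((sh_open T).measurableSet.diff o.measurableSet).inter
      ((isClosed_le (by fun_prop) continuous_const).measurableSet.inter
        (isClosed_le (by fun_prop) continuous_const).measurableSet)
  obtain ⟨e, e1, e2, hG⟩ := ray_dir (S.indicator fun z => ‖deriv Y z‖ₑ ^ 2)
    (((measurable_deriv Y).enorm.pow_const 2).indicator mS) x
  rw [lintegral_indicator mS] at hG
  replace hG := hG.trans (ENNReal.div_le_div_right hE 2)
  have im : ∀ ρ : ℝ, 0 ≤ ρ → (x + ρ * e).im ≤ x.im - ρ / 2 := fun ρ h => by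
    simp only [add_im, mul_im, ofReal_re, ofReal_im]
    nlinarith
  have lo : ∀ ρ : ℝ, 0 ≤ ρ → x + ρ * e ∈ Lo T := fun ρ h => by
    have : x.im < T := hx
    show (x + ρ * e).im < T
    linarith [im ρ h]
  have nr : ∀ ρ : ℝ, 0 ≤ ρ → ‖x + ρ * e - x‖ = ρ := fun ρ h => by
    rw [add_sub_cancel_left, norm_mul, e1, norm_real, Real.norm_of_nonneg h, mul_one]
  set c : ℝ → ℂ := fun ρ => Y (x + ρ * e) with hc
  have dc : ∀ ρ : ℝ, 0 ≤ ρ → HasDerivAt c (deriv Y (x + ρ * e) * e) ρ := fun ρ h => by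
    have d1 := (m.anY.differentiableAt ((sh_open T).mem_nhds (lo ρ h))).hasDerivAt
    have d2 : HasDerivAt (fun z : ℂ => x + z * e) e (ρ : ℂ) := by
      simpa using ((hasDerivAt_id (ρ : ℂ)).mul_const e).const_add x
    exact (d1.comp (ρ : ℂ) d2).comp_ofReal
  have dp : ∀ ρ : ℝ, 0 ≤ ρ → (c ρ).im < 0 := fun ρ h => m.lo _ (lo ρ h)
  have c0 : ∀ ρ : ℝ, 0 ≤ ρ → c ρ ≠ 0 := fun ρ h n => by
    have := dp ρ h
    rw [n, zero_im] at this
    linarith
  have cc : ContinuousOn c (Ici 0) := fun ρ h => (dc ρ h).continuousAt.continuousWithinAt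
  have img : ∀ P : Set ℝ, MeasurableSet P → P ⊆ Ici 0 → volume ((fun ρ => ‖c ρ‖) '' P) ≤
      ∫⁻ ρ in P, ENNReal.ofReal ‖deriv Y (x + ρ * e)‖ := fun P hP h => by
    simpa only [norm_mul, e1, mul_one] using
      ray_img hP (fun ρ hρ => dc ρ (h hρ)) fun ρ hρ => c0 ρ (h hρ)
  set μ := 8 * k * r / (W * t) with hμ
  set P₁ := Icc r (2 * D₁) ∩ (fun ρ => ‖c ρ‖) ⁻¹' Iic (3 * t) with hP₁
  set Q := Icc 0 r ∩ (fun ρ => ‖g (c ρ)‖) ⁻¹' Iic μ with hQ
  have s1 : Icc r (2 * D₁) ⊆ Ici 0 := fun ρ h => r0.le.trans h.1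
  have m1 : MeasurableSet P₁ :=
    ((cc.mono s1).norm.preimage_isClosed_of_isClosed isClosed_Icc isClosed_Iic).measurableSet
  have mQ : MeasurableSet Q := by
    refine (ContinuousOn.preimage_isClosed_of_isClosed ?_ isClosed_Icc isClosed_Iic).measurableSet
    refine (m.ang.continuousOn.comp (cc.mono Icc_subset_Ici_self) fun ρ h => ?_).norm
    exact dp ρ h.1
  obtain ⟨l, l0, hl'⟩ : ∃ l : ℝ, 0 < l ∧
      l / 2 * (E / 2) + (2 * l)⁻¹ * Real.log (2 * D₁ / r) ≤ t / 2 := by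
    have L0 : 0 ≤ Real.log (2 * D₁ / r) := Real.log_nonneg ((one_le_div r0).2 rD)
    set Λ := Real.log (2 * D₁ / r)
    rcases E0.eq_or_lt with h | h
    · refine ⟨(Λ + 1) / t, by positivity, ?_⟩
      rw [← h, show (2 * ((Λ + 1) / t))⁻¹ * Λ = t / 2 * (Λ / (Λ + 1)) by field_simp]
      have : Λ / (Λ + 1) ≤ 1 := div_le_one_of_le₀ (by linarith) (by linarith)
      nlinarith
    · refine ⟨t / E, by positivity, ?_⟩
      rw [show t / E / 2 * (E / 2) = t / 4 by field_simp; ring,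
        show (2 * (t / E))⁻¹ * Λ = 4 * E * Λ / (8 * t) by field_simp; ring]
      have : 4 * E * Λ / (8 * t) ≤ t / 4 := by
        rw [div_le_iff₀ (by positivity)]; nlinarith
      linarith
  have v1 : volume ((fun ρ => ‖c ρ‖) '' P₁) ≤ ENNReal.ofReal (t / 2) := by
    refine (img P₁ m1 (inter_subset_left.trans s1)).trans ?_
    calc _ ≤ ∫⁻ ρ in P₁, ENNReal.ofReal (l / 2) * (ENNReal.ofReal ρ *
            S.indicator (fun z => ‖deriv Y z‖ₑ ^ 2) (x + ρ * e)) +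
            ENNReal.ofReal ((2 * l)⁻¹ * ρ⁻¹) := by
          refine setLIntegral_mono' m1 fun ρ h => ?_
          have p : 0 < ρ := r0.trans_le h.1.1
          have s : x + ρ * e ∈ S :=
            ⟨lo ρ p.le, by rw [nr ρ p.le]; exact h.1.2, by linarith [im ρ p.le], h.2⟩
          rw [indicator_of_mem s, ← ofReal_norm_eq_enorm, ← ENNReal.ofReal_pow (norm_nonneg _),
            ← ENNReal.ofReal_mul p.le, ← ENNReal.ofReal_mul (by positivity),
            ← ENNReal.ofReal_add (by positivity) (by positivity)]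
          refine ENNReal.ofReal_le_ofReal ?_
          set u := ‖deriv Y (x + ρ * e)‖
          rw [show l / 2 * (ρ * u ^ 2) + (2 * l)⁻¹ * ρ⁻¹ = u + (l * ρ * u - 1) ^ 2 / (2 * l * ρ) by
            field_simp; ring]
          exact le_add_of_nonneg_right (by positivity)
      _ ≤ ENNReal.ofReal (l / 2) * (ENNReal.ofReal E / 2) +
            ENNReal.ofReal ((2 * l)⁻¹ * Real.log (2 * D₁ / r)) := by
          rw [lintegral_add_right _ (by fun_prop), lintegral_const_mul' _ _ ENNReal.ofReal_ne_top,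
            ← ray_log r0 rD l0]
          gcongr
          · exact (lintegral_mono_set fun ρ h => r0.trans_le h.1.1).trans hG
          · exact inter_subset_left
      _ ≤ _ := by
          rw [← ENNReal.ofReal_ofNat 2, ← ENNReal.ofReal_div_of_pos two_pos,
            ← ENNReal.ofReal_mul (by positivity), ← ENNReal.ofReal_add (by positivity)
              (mul_nonneg (by positivity) (Real.log_nonneg ((one_le_div r0).2 rD)))]
          exact ENNReal.ofReal_le_ofReal hl'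
  have v2 : volume ((fun ρ => ‖c ρ‖) '' (Icc 0 r \ Q)) ≤ ENNReal.ofReal (t / 4) := by
    have mD : MeasurableSet (Icc 0 r \ Q) := measurableSet_Icc.diff mQ
    refine (img _ mD fun ρ h => h.1.1).trans ?_
    calc _ ≤ ∫⁻ ρ in Icc 0 r \ Q, ENNReal.ofReal (t / (4 * r)) := by
          refine setLIntegral_mono' mD fun ρ h => ENNReal.ofReal_le_ofReal ?_
          have p := h.1.1
          have g1 : μ < ‖g (c ρ)‖ := lt_of_not_ge fun n => h.2 ⟨h.1, n⟩
          have o := congrArg norm (m.ode _ (lo ρ p))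
          rw [norm_mul, norm_mul, norm_mul, norm_real, Real.norm_of_nonneg W0.le] at o
          have b := hδ _ (lo ρ p) (by rw [nr ρ p]; exact h.1.2.trans rD) (by linarith [im ρ p])
          have : W * μ * ‖deriv Y (x + ρ * e)‖ ≤ 2 * k := by
            calc _ ≤ W * ‖g (c ρ)‖ * ‖deriv Y (x + ρ * e)‖ := by gcongr
              _ = ‖(2 : ℂ)‖ * ‖δ (x + ρ * e)‖ := o
              _ ≤ _ := by rw [show ‖(2 : ℂ)‖ = 2 by simp]; gcongr
          rw [show W * μ = 2 * k * (4 * r / t) by rw [hμ]; field_simp; ring, mul_assoc] at this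
          rw [le_div_iff₀ (by positivity)]
          have := le_of_mul_le_mul_left (this.trans_eq (mul_one _).symm) (by positivity)
          rw [div_mul_eq_mul_div, div_le_one t0] at this
          linarith
      _ ≤ ∫⁻ ρ in Icc 0 r, ENNReal.ofReal (t / (4 * r)) := lintegral_mono_set diff_subset
      _ = _ := by
          rw [setLIntegral_const, Real.volume_Icc, ← ENNReal.ofReal_mul (by positivity)]
          congr 1
          field_simp
          ring
  refine ⟨c '' (Q ∩ {ρ | ‖c ρ‖ ≤ 3 * t}), ?_, ?_⟩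
  · rintro _ ⟨ρ, h, rfl⟩
    exact ⟨hτ _ (lo ρ h.1.1.1) (by rw [nr ρ h.1.1.1]; exact h.1.1.2.trans rD), h.2, h.1.2⟩
  have D0 : 0 ≤ 2 * D₁ := r0.le.trans rD
  have iv := intermediate_value_Icc' D0 (cc.mono Icc_subset_Ici_self).norm
  have cov : Icc (2 * t) (3 * t) ⊆ (fun ρ => ‖c ρ‖) '' P₁ ∪ (fun ρ => ‖c ρ‖) '' (Icc 0 r \ Q) ∪
      (fun y : ℂ => ‖y‖) '' (c '' (Q ∩ {ρ | ‖c ρ‖ ≤ 3 * t})) := fun s hs => by
    obtain ⟨ρ, h, rfl⟩ := iv (a := s) ⟨(h2 _ (nr _ D0) (by linarith [im _ D0])).trans hs.1,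
      hs.2.trans (by simpa [hc] using h3)⟩
    rcases le_total r ρ with p | p
    · exact Or.inl (Or.inl ⟨ρ, ⟨⟨p, h.2⟩, hs.2⟩, rfl⟩)
    · by_cases q : ρ ∈ Q
      · exact Or.inr ⟨_, ⟨ρ, ⟨q, hs.2⟩, rfl⟩, rfl⟩
      · exact Or.inl (Or.inr ⟨ρ, ⟨⟨h.1, p⟩, q⟩, rfl⟩)
  have fin := (measure_mono (μ := volume) cov).trans ((measure_union_le _ _).trans
    (add_le_add ((measure_union_le _ _).trans (add_le_add v1 v2)) le_rfl))
  rw [Real.volume_Icc, show 3 * t - 2 * t = t / 2 + t / 4 + t / 4 by ring,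
    ENNReal.ofReal_add (by positivity) (by positivity),
    ENNReal.ofReal_add (by positivity) (by positivity)] at fin
  exact (ENNReal.add_le_add_iff_left (by finiteness)).1 fin

theorem exc (g Y δ : ℂ → ℂ) (W T τ C D₁ L k w ν : ℝ) (M : ML g W T Y δ) (τ0 : 0 < τ)
    (T0 : T ≤ 0) (TD : -D₁ < T) (k0 : 0 < k) (w0 : 0 ≤ w) (ν0 : 0 < ν) (gp : GP g τ C 0)
    (nd : ¬ Decay g τ) : ∃ t₀ : ℝ, ∀ t ≥ t₀, ∀ J : Finset ℝ, Sep J (w + 2 * D₁) →
      (∀ a ∈ J, |a| ≤ t ∧ Bot Y δ D₁ L (w + 2 * D₁) a ∧ Dep Y T τ (w + 2 * D₁) a ∧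
        Sheet δ T D₁ k (w + 2 * D₁) a ∧ Exc Y T D₁ w a (3 * t)) → (J.card : ℝ) ≤ ν * t := by
  by_contra hn
  push Not at hn
  obtain ⟨N, hN⟩ := en k
  have D0 : 0 < D₁ := by linarith
  have W0 := M.W0
  obtain ⟨A, A0, hA⟩ : ∃ A : ℝ, 0 < A ∧ ν * A = 36 * N + 1 :=
    ⟨(36 * N + 1) / ν, by positivity, by field_simp⟩
  refine nd (dec g τ C (1 / (4 * A)) M.ang τ0 (by positivity) gp fun t₀ => ?_)
  obtain ⟨t, ht, J, sp, hJ, cJ⟩ := hn (max (max t₀ 1) (max L (16 * k * D₁ / W)))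
  have t1 : t₀ ≤ t := ((le_max_left _ _).trans (le_max_left _ _)).trans ht
  have t2 : 1 ≤ t := ((le_max_right _ _).trans (le_max_left _ _)).trans ht
  have t3 : L ≤ t := ((le_max_left _ _).trans (le_max_right _ _)).trans ht
  have t4 : 16 * k * D₁ / W ≤ t := ((le_max_right _ _).trans (le_max_right _ _)).trans ht
  have t0 : 0 < t := by linarith
  have en' : ∫⁻ x in {x | x ∈ Lo T ∧ ‖δ x‖ ≤ k ∧ ‖Y x‖ ≤ 3 * t}, ‖deriv Y x‖ₑ ^ 2 ≤
      ENNReal.ofReal (N * (36 * t ^ 2)) := by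
    refine (hN g Y δ W T (3 * t) M).trans ?_
    rw [ENNReal.ofReal_mul (Nat.cast_nonneg _), ENNReal.ofReal_natCast, Complex.volume_closedBall,
      ← ENNReal.ofReal_pow (by positivity), ← ENNReal.ofReal_coe_nnreal, NNReal.coe_real_pi,
      ← ENNReal.ofReal_mul (by positivity)]
    refine mul_le_mul_right (ENNReal.ofReal_le_ofReal ?_) _
    nlinarith [Real.pi_le_four, sq_nonneg t]
  obtain ⟨a, ha, ea⟩ := exc_pick _ _ J _ (A * t) _ sp (by positivity) (by positivity) en' (by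
    have a1 := mul_lt_mul_of_pos_right cJ (mul_pos A0 t0)
    have a2 : ν * t * (A * t) = (36 * N + 1) * t ^ 2 := by rw [← hA]; ring
    nlinarith [mul_pos t0 t0])
  obtain ⟨at', bt, dp, sh, x, xT, xa, xD, xY⟩ := hJ a ha
  have re : ∀ z : ℂ, ‖z - x‖ ≤ 2 * D₁ → |z.re - a| ≤ w + 2 * D₁ ∧ -3 * D₁ ≤ z.im := fun z hz => by
    have a1 := (Complex.abs_re_le_norm (z - x)).trans hz
    have a2 := (Complex.abs_im_le_norm (z - x)).trans hz
    rw [Complex.sub_re] at a1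
    rw [Complex.sub_im] at a2
    exact ⟨by linarith [abs_sub_le z.re x.re a], by linarith [(abs_le.1 a2).1]⟩
  have x0 : 0 < t / (4 * A) := by positivity
  obtain ⟨B, b1, b2⟩ := ray g Y δ W T τ D₁ k t (A * t) (2 * D₁ * Real.exp (-(t / (4 * A)))) x M t0 k0
    (by positivity) (mul_le_of_le_one_right (by positivity) (Real.exp_le_one_iff.2 (by linarith)))
    (by positivity) xT xY (fun z zT h1 _ => sh z zT (re z h1).1 (re z h1).2)
    (fun z zT h1 => dp z zT (re z h1).1)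
    (fun z h1 h2 => by
      have xT' : x.im < T := xT
      have a1 := (bt z (re z h1.le).1 (re z h1.le).2 (by linarith)).1
      have a2 := norm_add_le (Y z - a) a
      rw [sub_add_cancel, Complex.norm_real, Real.norm_eq_abs] at a2
      linarith)
    (le_trans (lintegral_mono_set fun z hz => mem_inter (re z hz.2.1).1
      (And.intro hz.1 ⟨sh z hz.1 (re z hz.2.1).1 (re z hz.2.1).2, hz.2.2.2⟩)) ea)
    (by
      have e : 2 * D₁ / (2 * D₁ * Real.exp (-(t / (4 * A)))) = Real.exp (t / (4 * A)) := by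
        rw [Real.exp_neg]; field_simp
      rw [e, Real.log_exp]
      exact le_of_eq (by field_simp))
  refine ⟨t, t1, B, fun y hy => ⟨(b1 y hy).1, (b1 y hy).2.1, (b1 y hy).2.2.trans ?_⟩, b2⟩
  have e : 1 / (4 * A) * t = t / (4 * A) := by ring
  rw [e, div_le_iff₀ (by positivity)]
  rw [div_le_iff₀ W0] at t4
  nlinarith [Real.exp_pos (-(t / (4 * A)))]

end Vale.Agent.P097D.L
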