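import Vale.Agent.P097D.L.B
import Vale.Agent.P097F.NC.Defs

/-!
# P097D.L: one bounded column for one step
-/

set_option linter.all false

noncomputable section

namespace Vale.Agent.P097D.L

open Set Metric Complex Filter Topology MeasureTheory Vale.Agent.P097F

/-- a separated subfamily of integer places -/
theorem sepZ (J : Finset ℤ) (w : ℝ) (q : ℕ) (hq : 2 * w < q) (q0 : 0 < q) :
    ∃ J' : Finset ℝ, Sep J' w ∧ (∀ a ∈ J', ∃ k ∈ J, a = k) ∧ (J.card : ℝ) ≤ q * J'.card := by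
  classical
  haveI : NeZero q := ⟨q0.ne'⟩
  obtain ⟨c, -, hc⟩ := Finset.exists_le_card_fiber_of_nsmul_le_card_of_maps_to
    (s := J) (t := (Finset.univ : Finset (ZMod q))) (f := fun k : ℤ => (k : ZMod q))
    (b := (J.card : ℝ) / q) (fun _ _ => Finset.mem_univ _) Finset.univ_nonempty
    (by rw [Finset.card_univ, ZMod.card, nsmul_eq_mul]; exact le_of_eq (by field_simp))
  refine ⟨(J.filter fun k : ℤ => (k : ZMod q) = c).image fun k : ℤ => (k : ℝ), ?_, ?_, ?_⟩
  · intro a ha b hb ab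
    obtain ⟨k, hk, rfl⟩ := Finset.mem_image.1 ha
    obtain ⟨l, hl, rfl⟩ := Finset.mem_image.1 hb
    have d : (q : ℤ) ∣ l - k := (ZMod.intCast_eq_intCast_iff_dvd_sub k l q).1
      ((Finset.mem_filter.1 hk).2.trans (Finset.mem_filter.1 hl).2.symm)
    have n : l - k ≠ 0 := fun e => ab (by rw [sub_eq_zero.1 e])
    have := Int.le_of_dvd (abs_pos.2 n) ((dvd_abs _ _).2 d)
    have : (q : ℝ) ≤ |(l : ℝ) - k| := by exact_mod_cast this
    rw [abs_sub_comm]
    linarith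
  · intro a ha
    obtain ⟨k, hk, rfl⟩ := Finset.mem_image.1 ha
    exact ⟨k, (Finset.mem_filter.1 hk).1, rfl⟩
  · rw [Finset.card_image_of_injective _ Int.cast_injective]
    rwa [div_le_iff₀' (by exact_mod_cast q0)] at hc

theorem gp_of {g : ℂ → ℂ} {γ M a : ℝ} (γ0 : 0 ≤ γ) (γ1 : γ ≤ 1 / 8)
    (h : NC.AP (fun y => g (y + a)) γ M) : GP g (1 / 32) ((128 * M) ^ 8) a := by
  intro y hy
  have e := h (y - a) (by simp only [sub_im, ofReal_im]; linarith)
  simp only [sub_add_cancel, sub_im, ofReal_im, sub_zero] at e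
  have p : 1 ≤ 1 + ‖y - a‖ := le_add_of_nonneg_right (norm_nonneg _)
  have e1 : ‖g y‖ ≤ 128 * M * (1 + ‖y - a‖) ^ γ := by nlinarith [norm_nonneg (g y)]
  refine (pow_le_pow_left₀ (norm_nonneg _) e1 8).trans ?_
  rw [mul_pow, ← Real.rpow_mul_natCast (by linarith)]
  refine mul_le_mul_of_nonneg_left ?_ (by positivity)
  refine (Real.rpow_le_rpow_of_exponent_le p ?_).trans_eq (Real.rpow_one _)
  push_cast
  linarith

section

variable {g Y : ℂ → ℂ} {W p γ M T₁ a : ℝ}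

/-- no period -/
theorem np_of (p1 : p < T₁) (An : NC.Anc (fun x => Y (x + a) - a) T₁) (b : ℂ)
    (h : ∀ x ∈ Lo (-p), x + b ∈ Lo (-p) → Y (x + b) = Y x) : b = 0 := by
  by_contra n
  have b0 : 0 < ‖b‖ := norm_pos_iff.2 n
  obtain ⟨N, hN⟩ := exists_nat_gt (T₁ / 4 / ‖b‖)
  rw [div_lt_iff₀ b0] at hN
  set R : ℝ := |T₁| + 3 * (N * ‖b‖) with hR
  have cone : ∀ j : ℕ, j ≤ N → T₁ ≤ -(-R * I + j * b : ℂ).im ∧
      |(-R * I + j * b : ℂ).re| ≤ -(-R * I + j * b : ℂ).im / 2 := fun j hj => by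
    have e : ‖(j * b : ℂ)‖ ≤ N * ‖b‖ := by
      rw [norm_mul, Complex.norm_natCast]; gcongr
    have e1 := (abs_re_le_norm _).trans e
    have e2 := (le_abs_self _).trans ((abs_im_le_norm _).trans e)
    have r : (-R * I + j * b : ℂ).re = (j * b : ℂ).re := by rw [add_re]; simp
    have i : (-R * I + j * b : ℂ).im = -R + (j * b : ℂ).im := by rw [add_im]; simp
    rw [r, i]
    constructor <;> linarith [le_abs_self T₁, abs_nonneg T₁, abs_nonneg (j * b : ℂ).re]
  have lo : ∀ j : ℕ, j ≤ N → -R * I + j * b + a ∈ Lo (-p) := fun j hj => by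
    have := (cone j hj).1
    show (-R * I + j * b + a : ℂ).im < -p
    rw [add_im, ofReal_im]
    linarith
  have per : ∀ j : ℕ, j ≤ N → Y (-R * I + j * b + a) = Y (-R * I + (0 : ℕ) * b + a) := by
    intro j
    induction j with
    | zero => exact fun _ => rfl
    | succ j ih =>
      intro hj
      have e : (-R * I + (j + 1 : ℕ) * b + a : ℂ) = -R * I + j * b + a + b := by push_cast; ring
      rw [← ih (by omega), e]
      exact h _ (lo j (by omega)) (e ▸ lo _ hj)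
  have a1 := An _ (cone N le_rfl).1 (cone N le_rfl).2
  have a2 := An _ (cone 0 N.zero_le).1 (cone 0 N.zero_le).2
  simp only [per N le_rfl] at a1
  have t := (norm_sub_le _ _).trans (add_le_add a2 a1)
  rw [show Y (-R * I + (0 : ℕ) * b + a) - a - (-R * I + (0 : ℕ) * b) -
    (Y (-R * I + (0 : ℕ) * b + a) - a - (-R * I + N * b)) = N * b by push_cast; ring, norm_mul,
    Complex.norm_natCast] at t
  linarith

theorem lf_lo (F : NC.Lf g W p Y) : ∀ x ∈ Lo (-p), (Y x).im < 0 := fun x hx => by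
  have := F.pos x hx
  have : x.im < -p := hx
  linarith

theorem lf_δ (F : NC.Lf g W p Y) : DifferentiableOn ℂ (NC.dl g Y W) (Lo (-p)) :=
  ((((F.dg.comp F.dY (lf_lo F)).const_mul (W : ℂ)).mul
    (F.dY.deriv (Lo_open (-p)))).div_const 2 :)

/-- the leaf is not degenerate -/
theorem ne_of (F : NC.Lf g W p Y) (W0 : 0 < W) (p1 : p < T₁) (γ0 : 0 ≤ γ) (γ1 : γ ≤ 1 / 8)
    (P : NC.AP (fun y => g (y + a)) γ M) (An : NC.Anc (fun x => Y (x + a) - a) T₁)
    (nd : ¬ Decay g (1 / 32)) :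
    ∃ x ∈ Lo (-p), NC.dl g Y W x * sin (NC.dl g Y W x) ≠ 0 := by
  by_contra n
  push Not at n
  set δ := NC.dl g Y W with hδ
  have dδ := lf_δ F
  have o := Lo_open (-p)
  have s0 : ∀ x ∈ Lo (-p), sin (δ x) = 0 := fun x hx =>
    (mul_eq_zero.1 (n x hx)).elim (fun h => by rw [h, sin_zero]) id
  have d0 : ∀ x ∈ Lo (-p), deriv δ x = 0 := fun x hx => by
    have h1 := (dδ.differentiableAt (o.mem_nhds hx)).hasDerivAt.csin
    have h2 := h1.unique ((hasDerivAt_const x (0 : ℂ)).congr_of_eventuallyEq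
      (by filter_upwards [o.mem_nhds hx] with z hz using s0 z hz))
    refine (mul_eq_zero.1 h2).resolve_left fun c => ?_
    have := sin_sq_add_cos_sq (δ x)
    rw [s0 x hx, show cos (δ x) = 0 from c] at this
    simp at this
  have cst : ∀ x ∈ Lo (-p), ∀ z ∈ Lo (-p), ‖g (Y x)‖ = ‖g (Y z)‖ := fun x hx z hz => by
    have e := o.is_const_of_deriv_eq_zero (Lo_convex _).isPreconnected dδ d0 hx hz
    have e1 := (F.md x hx).symm.trans ((by rw [← hδ, show δ x = δ z from e] : _ = _).trans (F.md z hz))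
    have e2 := congrArg norm e1
    simp only [norm_pow, norm_mul, norm_real, Real.norm_of_nonneg W0.le] at e2
    exact mul_left_cancel₀ W0.ne' ((pow_left_inj₀ (by positivity) (by positivity)
      three_ne_zero).1 e2)
  have g0 : ∀ x ∈ Lo (-p), g (Y x) = 0 := fun x hx => by
    by_contra c
    have k0 : 0 < ‖g (Y x)‖ := norm_pos_iff.2 c
    set κ := ‖g (Y x)‖
    set s := |T₁| with hs
    have s0 : 0 ≤ s := abs_nonneg _
    set u : ℝ := 1 + M ^ 8 * (2 + 2 * s) / κ ^ 8 with hu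
    have u1 : 1 ≤ u := le_add_of_nonneg_right (by positivity)
    set z : ℂ := -((u + s : ℝ) : ℂ) * I with hz
    have zi : z.im = -(u + s) := by simp [hz]
    have sT : T₁ ≤ s := le_abs_self _
    have a1 := An z (by rw [zi]; linarith) (by rw [zi]; simp [hz]; linarith)
    set y := Y (z + a) - a with hy
    have yi : u ≤ -y.im := by
      have := (le_abs_self _).trans ((abs_im_le_norm _).trans a1)
      rw [sub_im, zi] at this
      linarith
    have yn : ‖y‖ ≤ u + 2 * s := by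
      have := norm_le_norm_sub_add y z
      have : ‖z‖ = u + s := by
        rw [hz, norm_mul, norm_neg, norm_real, norm_I, mul_one, Real.norm_of_nonneg (by linarith)]
      linarith
    have e := P y (by linarith)
    simp only [hy, sub_add_cancel] at e
    rw [cst (z + a) (by show (z + a).im < -p; rw [add_im, zi, ofReal_im]; linarith) x hx,
      ← hy] at e
    have e1 : (κ * u) ^ 8 ≤ M ^ 8 * (1 + ‖y‖) := by
      refine (pow_le_pow_left₀ (by positivity) ((mul_le_mul_of_nonneg_left yi k0.le).trans e)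
        8).trans ?_
      rw [mul_pow, ← Real.rpow_mul_natCast (by positivity)]
      refine mul_le_mul_of_nonneg_left ?_ (by positivity)
      refine (Real.rpow_le_rpow_of_exponent_le (le_add_of_nonneg_right (norm_nonneg _))
        ?_).trans_eq (Real.rpow_one _)
      push_cast
      linarith
    have e2 : κ ^ 8 * u * u ≤ M ^ 8 * (2 + 2 * s) * u := by
      calc κ ^ 8 * u * u = κ ^ 8 * u ^ 2 := by ring
        _ ≤ κ ^ 8 * u ^ 8 := by gcongr; norm_num
        _ ≤ M ^ 8 * (1 + ‖y‖) := by rwa [← mul_pow]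
        _ ≤ M ^ 8 * ((2 + 2 * s) * u) := by gcongr; nlinarith
        _ = _ := by ring
    have e3 := le_of_mul_le_mul_right e2 (by linarith)
    rw [hu, mul_add, mul_div_cancel₀ _ (by positivity)] at e3
    linarith [pow_pos k0 8]
  set x₀ : ℂ := ((-p - 1 : ℝ) : ℂ) * I with hx₀
  have h0 : x₀ ∈ Lo (-p) := by show x₀.im < -p; simp [hx₀]
  have ag : AnalyticOnNhd ℂ g (Lo 0) := F.dg.analyticOnNhd (Lo_open 0)
  have aY : AnalyticOnNhd ℂ Y (Lo (-p)) := F.dY.analyticOnNhd o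
  rcases (ag _ (lf_lo F x₀ h0)).eventually_eq_zero_or_eventually_ne_zero with h | h
  · have z := ag.eqOn_zero_of_preconnected_of_eventuallyEq_zero (Lo_convex _).isPreconnected
      (lf_lo F x₀ h0) h
    refine nd ⟨1, 0, one_pos, fun y hy => ?_⟩
    rw [show g y = 0 from z (by show y.im < 0; linarith)]
    simp
  · have e : Y =ᶠ[𝓝 x₀] fun _ => Y x₀ := by
      filter_upwards [(aY _ h0).continuousAt.eventually (eventually_nhdsWithin_iff.1 h),
        o.mem_nhds h0] with z h1 h2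
      by_contra c
      exact h1 c (g0 z h2)
    have z := aY.eqOn_of_preconnected_of_eventuallyEq analyticOnNhd_const
      (Lo_convex _).isPreconnected h0 e
    exact one_ne_zero (np_of p1 An 1 fun x h1 h2 => (z h2).trans (z h1).symm)

end

/-- the bottom of a column, from one anchor -/
theorem bot_of (W p C T₁ w : ℝ) (W0 : 0 < W) (p0 : 0 ≤ p) (w0 : 0 ≤ w) : ∃ L : ℝ,
    ∀ (g Y : ℂ → ℂ) (a : ℝ), NC.Lf g W p Y → GP g (1 / 32) C a →
      NC.Anc (fun x => Y (x + a) - a) T₁ → Bot Y (NC.dl g Y W) (p + 1) L w a := by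
  set ρ : ℝ := |T₁| + 2 * (w + 1) ^ 2 + p + 2 with hρ
  set L₁ : ℝ := p + ρ + |T₁| with hL₁
  set L₀ : ℝ := L₁ + 8 * ρ * L₁ with hL₀
  have s0 := abs_nonneg T₁
  have sT := le_abs_self T₁
  have ρ0 : 0 < ρ := by positivity
  have L0 : 0 ≤ L₀ := by positivity
  refine ⟨L₀ + W * (1 + |C| * (1 + L₀)) * L₀, fun g Y a F G An => ?_⟩
  set z₀ : ℂ := -((p + ρ : ℝ) : ℂ) * I with hz₀
  have zi : z₀.im = -(p + ρ) := by simp [hz₀]
  have a1 : ‖Y (z₀ + a) - a‖ ≤ L₁ := by
    have h := An z₀ (by rw [zi]; nlinarith [sq_nonneg (w + 1)]) (by rw [zi]; simp [hz₀]; linarith)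
    have := norm_le_norm_sub_add (Y (z₀ + a) - a) z₀
    have : ‖z₀‖ = p + ρ := by
      rw [hz₀, norm_mul, norm_neg, norm_real, norm_I, mul_one, Real.norm_of_nonneg (by linarith)]
    linarith
  have big : ∀ z : ℂ, |z.re - a| ≤ w + 1 → p + 1 / 2 ≤ -z.im → -z.im ≤ 3 * (p + 1) + 1 / 2 →
      ‖Y z - a‖ ≤ L₀ := fun z h1 h2 h3 => by
    have n : ‖z - (z₀ + a)‖ ≤ ρ - 1 / 4 := by
      refine (abs_le_of_sq_le_sq' ?_ (by nlinarith [sq_nonneg (w + 1)])).2
      rw [Complex.sq_norm, normSq_apply]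
      have r : (z - (z₀ + a)).re = z.re - a := by simp [hz₀]
      have i : (z - (z₀ + a)).im = z.im + (p + ρ) := by rw [sub_im, add_im, zi, ofReal_im]; ring
      rw [r, i]
      have q1 : (z.re - a) ^ 2 ≤ (w + 1) ^ 2 := sq_le_sq' (abs_le.1 h1).1 (abs_le.1 h1).2
      have q2 : (z.im + (p + ρ)) ^ 2 ≤ (ρ - 1 / 2) ^ 2 :=
        sq_le_sq' (by nlinarith [sq_nonneg (w + 1)]) (by linarith)
      nlinarith
    have S := sh_schw (R := ρ) F.dY (lf_lo F) (x₀ := z₀ + a) (x := z)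
      (by rw [add_im, zi]; simp) (by linarith)
    have i0 : |(Y (z₀ + a)).im| ≤ L₁ := by
      have := abs_im_le_norm (Y (z₀ + a) - a)
      simp only [sub_im, ofReal_im, sub_zero] at this
      linarith
    have t := norm_sub_le_norm_sub_add_norm_sub (Y z) (Y (z₀ + a)) a
    have u : ‖Y z - Y (z₀ + a)‖ * (1 / 4) ≤ 2 * ρ * L₁ :=
      (mul_le_mul_of_nonneg_left (by linarith) (norm_nonneg _)).trans
        (S.trans (mul_le_mul_of_nonneg_left i0 (by positivity)))
    linarith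
  intro x h1 h2 h3
  have b1 := big x (by linarith) (by linarith) (by linarith)
  have cb : ∀ z ∈ closedBall x (1 / 2), |z.re - x.re| ≤ 1 / 2 ∧ |z.im - x.im| ≤ 1 / 2 :=
    fun z hz => by
      rw [mem_closedBall, dist_eq_norm] at hz
      exact ⟨by simpa using (abs_re_le_norm _).trans hz, by simpa using (abs_im_le_norm _).trans hz⟩
  have b2 : ‖deriv (fun z => Y z - a) x‖ ≤ L₀ / (1 / 2) := by
    refine Complex.norm_deriv_le_of_forall_mem_sphere_norm_le (by norm_num) ?_ fun z hz => ?_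
    · refine DifferentiableOn.diffContOnCl ((F.dY.sub_const _).mono ?_)
      rw [closure_ball _ (by norm_num)]
      intro z hz
      show z.im < -p
      linarith [(abs_le.1 (cb z hz).2).2]
    · obtain ⟨c1, c2⟩ := cb z (sphere_subset_closedBall hz)
      exact big z (by linarith [abs_sub_le z.re x.re a]) (by linarith [(abs_le.1 c2).2])
        (by linarith [(abs_le.1 c2).1])
  rw [deriv_sub_const] at b2
  have b3 : ‖g (Y x)‖ ≤ 1 + |C| * (1 + L₀) := by
    have e := G (Y x) (by linarith [F.pos x (by linarith)])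
    have e1 : ‖g (Y x)‖ ^ 8 ≤ |C| * (1 + L₀) :=
      e.trans (mul_le_mul (le_abs_self C) (by linarith) (by positivity) (abs_nonneg C))
    rcases le_total ‖g (Y x)‖ 1 with h | h
    · exact h.trans (le_add_of_nonneg_right (by positivity))
    · linarith [le_self_pow₀ h (by norm_num : 8 ≠ 0)]
  have b4 : ‖NC.dl g Y W x‖ ≤ W * (1 + |C| * (1 + L₀)) * L₀ := by
    unfold NC.dl
    rw [norm_div, norm_mul, norm_mul, norm_real, Real.norm_of_nonneg W0.le,
      show ‖(2 : ℂ)‖ = 2 by simp]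
    calc _ ≤ W * (1 + |C| * (1 + L₀)) * (L₀ / (1 / 2)) / 2 := by gcongr
      _ = _ := by ring
  exact ⟨b1.trans (le_add_of_nonneg_right (by positivity)), b4.trans (le_add_of_nonneg_left L0)⟩

/-- **one bounded column**: for one step `W`, a family `P` of good integer places of positive
upper density contains a place with bounded states -/
def Spec_BND : Prop := ∀ (g Y : ℂ → ℂ) (W p γ M T₁ w κ : ℝ) (P : ℤ → Prop), NC.Lf g W p Y →
  0 < W → 0 ≤ p → p < T₁ → 0 ≤ γ → γ ≤ 1 / 8 → 0 ≤ w → 0 < κ → ¬ Decay g (1 / 32) →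
  (∀ a : ℤ, P a → NC.AP (fun y => g (y + a)) γ M ∧ NC.Anc (fun x => Y (x + a) - a) T₁ ∧
    ∀ x : ℂ, |x.re - a| ≤ w + 2 * p + 2 → x.im < -p → (Y x).im ≤ -1 / 32) →
  (∀ t₀ : ℝ, ∃ t ≥ t₀, ∃ J : Finset ℤ, (∀ a ∈ J, |(a : ℝ)| ≤ t ∧ P a) ∧ κ * t ≤ J.card) →
  ∃ a : ℤ, P a ∧ ∀ D : ℝ, ∃ B : ℝ, ∀ x : ℂ, |x.re - a| ≤ w → -D ≤ x.im → x.im < -p →
    ‖Y x‖ ≤ B ∧ ‖NC.dl g Y W x‖ ≤ B

theorem bnd1 : Spec_BND := by
  intro g Y W p γ M T₁ w κ P F W0 p0 p1 γ0 γ1 w0 κ0 nd hP hJ
  replace hP : ∀ a : ℤ, P a → NC.AP (fun y => g (y + (a : ℝ))) γ M ∧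
      NC.Anc (fun x => Y (x + (a : ℝ)) - (a : ℝ)) T₁ ∧
      Dep Y (-p) (1 / 32) (w + 2 * (p + 1)) a := fun a h => by
    obtain ⟨h1, h2, h3⟩ := hP a h
    refine ⟨by simpa using h1, by simpa using h2, fun x hx h => ?_⟩
    linarith [h3 x (by linarith) hx]
  obtain ⟨a₀, h₀⟩ : ∃ a, P a := by
    obtain ⟨t, ht, J, h1, h2⟩ := hJ 1
    have : (0 : ℝ) < J.card := lt_of_lt_of_le (by positivity) h2
    obtain ⟨a, ha⟩ := Finset.card_pos.1 (by exact_mod_cast this)
    exact ⟨a, (h1 a ha).2⟩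
  set δ := NC.dl g Y W with hδ
  have m : ML g W (-p) Y δ := ⟨W0, F.dg, F.dY, lf_δ F, lf_lo F, fun x hx => (F.md x hx).symm,
    fun x _ => by rw [hδ, NC.dl]; ring, np_of p1 (hP a₀ h₀).2.1,
    ne_of F W0 p1 γ0 γ1 (hP a₀ h₀).1 (hP a₀ h₀).2.1 nd⟩
  set C := (128 * M) ^ 8 with hC
  have G : ∀ a, P a → GP g (1 / 32) C a := fun a h => gp_of γ0 γ1 (hP a h).1
  have G0 : GP g (1 / 32) (C * (1 + |(a₀ : ℝ)|)) 0 := fun y hy => by
    refine (G a₀ h₀ y hy).trans ?_
    rw [mul_assoc]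
    refine mul_le_mul_of_nonneg_left ?_ (by positivity)
    have := norm_sub_le y ((a₀ : ℝ) : ℂ)
    rw [norm_real, Real.norm_eq_abs] at this
    rw [ofReal_zero, sub_zero]
    nlinarith [mul_nonneg (abs_nonneg (a₀ : ℝ)) (norm_nonneg y)]
  obtain ⟨L, hL⟩ := bot_of W p C T₁ (w + 2 * (p + 1)) W0 p0 (by positivity)
  obtain ⟨k, k1, hk⟩ := sh (1 / 32) C W (p + 1) L (by norm_num)
  have B : ∀ a, P a → Bot Y δ (p + 1) L (w + 2 * (p + 1)) a :=
    fun a h => hL g Y a F (G a h) (hP a h).2.1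
  have S : ∀ a, P a → Sheet δ (-p) (p + 1) k (w + 2 * (p + 1)) a := fun a h =>
    hk g Y δ W (-p) _ a m le_rfl (by linarith) (by linarith) (G a h) (B a h) (hP a h).2.2
  obtain ⟨q, hq⟩ := exists_nat_gt (2 * (w + 2 * (p + 1)))
  have q0 : (0 : ℝ) < q := lt_of_le_of_lt (by positivity) hq
  obtain ⟨a, R, pa, hR⟩ : ∃ (a : ℤ) (R : ℝ), P a ∧ ¬ Exc Y (-p) (p + 1) w a R := by
    by_contra n
    push Not at n
    obtain ⟨t₀, ht₀⟩ := exc g Y δ W (-p) (1 / 32) _ (p + 1) L k w (κ / (2 * q)) m (by norm_num)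
      (by linarith) (by linarith) (by linarith) w0 (by positivity) G0 nd
    obtain ⟨t, ht, J, h1, h2⟩ := hJ (max t₀ 1)
    obtain ⟨J', s1, s2, s3⟩ := sepZ J _ q hq (by exact_mod_cast q0)
    have c := ht₀ t ((le_max_left _ _).trans ht) J' s1 fun a ha => by
      obtain ⟨j, hj, rfl⟩ := s2 a ha
      have pj := (h1 j hj).2
      exact ⟨(h1 j hj).1, B j pj, (hP j pj).2.2, S j pj, n j _ pj⟩
    have t0 : 0 < κ * t := mul_pos κ0 (lt_of_lt_of_le one_pos ((le_max_right _ _).trans ht))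
    have := h2.trans (s3.trans (mul_le_mul_of_nonneg_left c q0.le))
    rw [show q * (κ / (2 * q) * t) = κ * t / 2 by field_simp] at this
    linarith
  refine ⟨a, pa, fun D => ?_⟩
  have cK : IsCompact (Icc (a - w) (a + w) ×ℂ Icc (-D) (-(p + 1))) :=
    isCompact_Icc.reProdIm isCompact_Icc
  have sK : Icc (a - w) (a + w) ×ℂ Icc (-D) (-(p + 1)) ⊆ Lo (-p) := fun z hz => by
    have := hz.2.2
    show z.im < -p
    linarith
  obtain ⟨B₁, h1⟩ := cK.exists_bound_of_continuousOn (m.anY.continuousOn.mono sK)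
  obtain ⟨B₂, h2⟩ := cK.exists_bound_of_continuousOn (m.anδ.continuousOn.mono sK)
  refine ⟨max (max B₁ B₂) (max R k), fun x x1 x2 x3 => ?_⟩
  rcases le_total x.im (-(p + 1)) with h | h
  · have xK : x ∈ Icc (a - w) (a + w) ×ℂ Icc (-D) (-(p + 1)) :=
      ⟨⟨by linarith [(abs_le.1 x1).1], by linarith [(abs_le.1 x1).2]⟩, x2, h⟩
    exact ⟨(h1 x xK).trans ((le_max_left _ _).trans (le_max_left _ _)),
      (h2 x xK).trans ((le_max_right _ _).trans (le_max_left _ _))⟩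
  · exact ⟨(lt_of_not_ge fun c => hR ⟨x, x3, x1, h, c⟩).le.trans
      ((le_max_left _ _).trans (le_max_right _ _)),
      (S a pa x x3 (by linarith) (by linarith)).trans
        ((le_max_right _ _).trans (le_max_right _ _))⟩

end Vale.Agent.P097D.L
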